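import Vale.Agent.P224.Cover
import Vale.Agent.P224.Simons.Main
import Vale.Agent.P224.VolFinite

/-!
P224: minimal hypersurfaces of the sphere with `|A|² ≥ m`, or with `|A|²` a positive constant, have
volume at least the least Clifford value.
-/

open scoped Manifold ContDiff ENNReal
open Vale.Agent.P224

namespace Vale.Agent.Results.P224.PinchedVolume

theorem result {m : ℕ} (hm : 2 ≤ m) {M : Type*} [TopologicalSpace M] [ChartedSpace (E m) M]
    [IsManifold (𝓡 m) ∞ M] [CompactSpace M] [Nonempty M] {F : M → E (m + 2)}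
    (hF : IsMinimalImmersion F)
    (hA : (∀ x, ∀ p ∈ (chartAt (E m) x).target, ∀ ν, IsUnitNormal (rep F x) p ν →
        (m : ℝ) ≤ normSq (rep F x) p ν) ∨
      ∃ c : ℝ, 0 < c ∧ ∀ x, ∀ p ∈ (chartAt (E m) x).target, ∀ ν, IsUnitNormal (rep F x) p ν →
        normSq (rep F x) p ν = c) :
    ∃ k : ℕ, 1 ≤ k ∧ k < m ∧ ENNReal.ofReal (cliffordVolume m k) ≤ vol F ∧ vol F < ⊤ := by
  suffices h : ∀ x, ∀ p ∈ (chartAt (E m) x).target, ∀ ν, IsUnitNormal (rep F x) p ν →
      (m : ℝ) ≤ normSq (rep F x) p ν by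
    obtain ⟨k, h1, h2, h3⟩ := clifford_le_vol hm hF h
    exact ⟨k, h1, h2, h3, vol_lt_top hF⟩
  rcases hA with h | ⟨c, hc, h⟩
  · exact h
  intro x p hp ν hν
  rw [h x p hp ν hν]
  have hU := (chartAt (E m) x).open_target
  have hs : ∀ q ∈ (chartAt (E m) x).target, ‖rep F x q‖ = 1 := fun q _ => hF.sphere _
  obtain ⟨N, hN, hN'⟩ := exists_normal hU (contDiffOn_rep hF x) hs (hF.immersion x)
  exact csc_ge hU ⟨p, hp⟩ (contDiffOn_rep hF x) hN hs (hF.immersion x) hN'
    (fun q hq => hF.minimal x q hq _ (hN' q hq)) hc (fun q hq => h x q hq _ (hN' q hq))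

end Vale.Agent.Results.P224.PinchedVolume
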