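import Vale.Agent.P224.Gap.Core
import Vale.Agent.P224.Gap.Cone
import Vale.Agent.P224.Gap.Glob
import Vale.Agent.P224.Gap.Geodesic

/-!
P224: a dimension-free volume gap above the equators for minimal hypersurfaces of the sphere.
-/

open scoped Manifold ContDiff ENNReal RealInnerProductSpace
open Vale.Agent.P224

namespace Vale.Agent.Results.P224.VolumeGap

theorem result {m : ℕ} (hm : 2 ≤ m) {M : Type} [TopologicalSpace M] [ChartedSpace (E m) M]
    [IsManifold (𝓡 m) ∞ M] [CompactSpace M] [T2Space M] {F : M → E (m + 2)}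
    (hF : IsMinimalImmersion F)
    (hA : (∃ x, ∃ p ∈ (chartAt (E m) x).target, ∃ ν, IsUnitNormal (rep F x) p ν ∧
      normSq (rep F x) p ν ≠ 0) ∨
      (ConnectedSpace M ∧ ∀ v : E (m + 2), v ≠ 0 → ∃ x, ⟪F x, v⟫ ≠ 0)) :
    ENNReal.ofReal ((1 + 1 / 10 ^ 12) * sphereArea m) ≤ vol F := by
  borelize M
  have hA' : ∃ x, ∃ p ∈ (chartAt (E m) x).target, ∃ ν, IsUnitNormal (rep F x) p ν ∧
      normSq (rep F x) p ν ≠ 0 := by
    rcases hA with h | ⟨hc, h⟩
    · exact h
    · exact Gap.exists_normSq_ne hF hm h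
  obtain ⟨D, hlow, hvol⟩ := Gap.glob_stmt hm hF hA'
  exact (ENNReal.ofReal_le_ofReal (Gap.core_stmt hm D (Gap.cone_stmt hm D) hlow)).trans hvol

end Vale.Agent.Results.P224.VolumeGap
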